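import Vale.Agent.P022.H783.Sv.Grp

/-!
P022D: a solvable subgroup of `GL₂(k)`, `k` algebraically closed of characteristic 2, which is
irreducible on a subgroup `H`, has trace zero off a subgroup `M` of index two which does not
contain `H`, and some element of `M ∩ H` has a non zero trace.
-/

open Matrix

noncomputable section

namespace Vale.Agent.P022D.Dk

open Vale.Agent.P022.H783.Sv

variable {k : Type} [Field k]

/-- a stable line for a conjugate gives a stable line -/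
lemma line_conj (P A : GL (Fin 2) k) (v : Fin 2 → k) (a : k)
    (h : ((P⁻¹ * A * P : GL (Fin 2) k) : Matrix (Fin 2) (Fin 2) k) *ᵥ v = a • v) :
    (A : Matrix (Fin 2) (Fin 2) k) *ᵥ ((P : Matrix (Fin 2) (Fin 2) k) *ᵥ v) =
      a • ((P : Matrix (Fin 2) (Fin 2) k) *ᵥ v) := by
  have e : A * P = P * (P⁻¹ * A * P) := by group
  rw [Matrix.mulVec_mulVec, ← Units.val_mul, e, Units.val_mul, ← Matrix.mulVec_mulVec, h,
    Matrix.mulVec_smul]

lemma mulVec_ne (P : GL (Fin 2) k) {v : Fin 2 → k} (hv : v ≠ 0) :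
    (P : Matrix (Fin 2) (Fin 2) k) *ᵥ v ≠ 0 := by
  intro h
  apply hv
  have h2 := congrArg (fun w => ((P⁻¹ : GL (Fin 2) k) : Matrix (Fin 2) (Fin 2) k) *ᵥ w) h
  simp only [Matrix.mulVec_mulVec, Matrix.mulVec_zero] at h2
  rw [← Units.val_mul, inv_mul_cancel, Units.val_one, Matrix.one_mulVec] at h2
  exact h2

theorem grp [IsAlgClosed k] [CharP k 2] {G : Type} [Group G] (ρ : G →* GL (Fin 2) k)
    (hs : Group.IsSolvable ρ.range) (H : Subgroup G)
    (hi : ∀ w : Fin 2 → k, w ≠ 0 → ∃ g ∈ H, ∀ a : k,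
      (ρ g : Matrix (Fin 2) (Fin 2) k) *ᵥ w ≠ a • w) :
    ∃ M : Subgroup G, M.index = 2 ∧ (∀ g, g ∉ M → (ρ g : Matrix (Fin 2) (Fin 2) k).trace = 0) ∧
      (∃ g ∈ M, g ∈ H ∧ (ρ g : Matrix (Fin 2) (Fin 2) k).trace ≠ 0) ∧ ∃ g ∈ H, g ∉ M := by
  have he : (![1, 0] : Fin 2 → k) ≠ 0 := by
    intro h
    have := congrFun h 0
    simp at this
  have hn : ¬ ∀ g, ∃ c : k, (ρ g : Matrix (Fin 2) (Fin 2) k) = c • 1 := by
    intro hn
    obtain ⟨g, -, hg⟩ := hi _ he
    obtain ⟨c, hc⟩ := hn g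
    apply hg c
    rw [hc, Matrix.smul_mulVec, Matrix.one_mulVec]
  obtain ⟨b, hb, hcomm⟩ := exists_comm ρ hs hn
  obtain ⟨P, l, m, x, hP, hlx⟩ := normal _ hb
  let σ : G →* GL (Fin 2) k :=
    { toFun := fun g => P⁻¹ * ρ g * P
      map_one' := by rw [map_one]; group
      map_mul' := fun g g' => by rw [map_mul]; group }
  have hσ : ∀ g, σ g = P⁻¹ * ρ g * P := fun g => rfl
  have htr : ∀ g, (ρ g : Matrix (Fin 2) (Fin 2) k).trace =
      (σ g : Matrix (Fin 2) (Fin 2) k).trace := by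
    intro g
    rw [hσ, Units.val_mul, Units.val_mul, Matrix.trace_units_conj']
  have hd := fun g => dich hP hlx (hcomm g)
  simp only [← hσ] at hd
  -- irreducibility for `σ`
  have hiσ : ∀ v : Fin 2 → k, v ≠ 0 → ∃ g ∈ H, ∀ a : k,
      (σ g : Matrix (Fin 2) (Fin 2) k) *ᵥ v ≠ a • v := by
    intro v hv
    obtain ⟨g, hg, h⟩ := hi _ (mulVec_ne P hv)
    exact ⟨g, hg, fun a ha => h a (line_conj P (ρ g) v a ha)⟩
  have hout : ∃ g ∈ H, (σ g : Matrix (Fin 2) (Fin 2) k) 1 0 ≠ 0 := by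
    obtain ⟨g, hg, h⟩ := hiσ _ he
    refine ⟨g, hg, fun h0 => h ((σ g : Matrix (Fin 2) (Fin 2) k) 0 0) ?_⟩
    ext i
    fin_cases i <;> simp [Matrix.mulVec, dotProduct, Fin.sum_univ_two, h0]
  obtain ⟨g₀, hg₀H, hg₀⟩ := hout
  have hlm : l ≠ m := by
    rcases hd g₀ with h | h
    · exact absurd h.1 hg₀
    · exact h.1
  have hoff : ∀ g, (σ g : Matrix (Fin 2) (Fin 2) k) 1 0 ≠ 0 →
      (σ g : Matrix (Fin 2) (Fin 2) k) 0 0 = 0 ∧ (σ g : Matrix (Fin 2) (Fin 2) k) 1 1 = 0 := by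
    intro g hg
    rcases hd g with h | h
    · exact absurd h.1 hg
    · exact h.2
  have hmul : ∀ g g' i j, (σ (g * g') : Matrix (Fin 2) (Fin 2) k) i j =
      (σ g : Matrix (Fin 2) (Fin 2) k) i 0 * (σ g' : Matrix (Fin 2) (Fin 2) k) 0 j +
      (σ g : Matrix (Fin 2) (Fin 2) k) i 1 * (σ g' : Matrix (Fin 2) (Fin 2) k) 1 j := by
    intro g g' i j
    rw [map_mul, Units.val_mul, Matrix.mul_apply, Fin.sum_univ_two]
  have hdet : ∀ g, (σ g : Matrix (Fin 2) (Fin 2) k) 0 0 * (σ g : Matrix (Fin 2) (Fin 2) k) 1 1 -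
      (σ g : Matrix (Fin 2) (Fin 2) k) 0 1 * (σ g : Matrix (Fin 2) (Fin 2) k) 1 0 ≠ 0 := by
    intro g
    rw [← Matrix.det_fin_two]
    exact ((Matrix.isUnit_iff_isUnit_det _).1 (σ g).isUnit).ne_zero
  have hon : ∀ g, (σ g : Matrix (Fin 2) (Fin 2) k) 1 0 = 0 →
      (σ g : Matrix (Fin 2) (Fin 2) k) 0 1 = 0 := by
    intro g hg
    rcases hd g with h | h
    · exact h.2 hlm
    · exfalso
      apply hdet g
      rw [h.2.1, hg]
      ring
  let M : Subgroup G :=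
    { carrier := {g | (σ g : Matrix (Fin 2) (Fin 2) k) 1 0 = 0}
      mul_mem' := by
        intro g g' hg hg'
        simp only [Set.mem_setOf_eq] at hg hg' ⊢
        rw [hmul, hg, hg', zero_mul, mul_zero, add_zero]
      one_mem' := by
        simp
      inv_mem' := by
        intro g hg
        simp only [Set.mem_setOf_eq] at hg ⊢
        by_contra hg'
        obtain ⟨-, h1⟩ := hoff _ hg'
        have h2 := hmul g g⁻¹ 1 1
        rw [mul_inv_cancel, hg, h1, zero_mul, mul_zero, add_zero] at h2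
        simp at h2 }
  have hM : ∀ g, g ∈ M ↔ (σ g : Matrix (Fin 2) (Fin 2) k) 1 0 = 0 := fun g => Iff.rfl
  have h2 : (2 : k) = 0 := CharTwo.two_eq_zero
  refine ⟨M, ?_, ?_, ?_, g₀, hg₀H, fun h => hg₀ ((hM g₀).1 h)⟩
  · rw [Subgroup.index_eq_two_iff]
    refine ⟨g₀, fun g => ?_⟩
    by_cases hg : (σ g : Matrix (Fin 2) (Fin 2) k) 1 0 = 0
    · right
      refine ⟨(hM g).2 hg, ?_⟩
      rw [hM, hmul, hg, zero_mul, zero_add]
      refine mul_ne_zero ?_ hg₀
      intro h1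
      apply hdet g
      rw [h1, hg]
      ring
    · left
      refine ⟨?_, fun h => hg ((hM g).1 h)⟩
      rw [hM, hmul, (hoff g hg).2, (hoff g₀ hg₀).1, mul_zero, zero_mul, add_zero]
  · intro g hg
    have hg' : (σ g : Matrix (Fin 2) (Fin 2) k) 1 0 ≠ 0 := fun h => hg ((hM g).2 h)
    rw [htr, Matrix.trace_fin_two, (hoff g hg').1, (hoff g hg').2, add_zero]
  · by_contra hcon
    push Not at hcon
    have hsc : ∀ g ∈ H, (σ g : Matrix (Fin 2) (Fin 2) k) 1 0 = 0 →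
        (σ g : Matrix (Fin 2) (Fin 2) k) 1 1 = (σ g : Matrix (Fin 2) (Fin 2) k) 0 0 := by
      intro g hg h0
      have h3 := hcon g ((hM g).2 h0) hg
      rw [htr, Matrix.trace_fin_two] at h3
      linear_combination h3 - (σ g : Matrix (Fin 2) (Fin 2) k) 0 0 * h2
    obtain ⟨u, hu⟩ := IsAlgClosed.exists_pow_nat_eq ((σ g₀ : Matrix (Fin 2) (Fin 2) k) 0 1)
      (n := 2) (by norm_num)
    obtain ⟨v, hv⟩ := IsAlgClosed.exists_pow_nat_eq ((σ g₀ : Matrix (Fin 2) (Fin 2) k) 1 0)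
      (n := 2) (by norm_num)
    have hv0 : v ≠ 0 := by
      rintro rfl
      apply hg₀
      rw [← hv]
      ring
    have hw : (![u, v] : Fin 2 → k) ≠ 0 := by
      intro h
      have := congrFun h 1
      exact hv0 (by simpa using this)
    obtain ⟨g, hg, h⟩ := hiσ _ hw
    by_cases h0 : (σ g : Matrix (Fin 2) (Fin 2) k) 1 0 = 0
    · apply h ((σ g : Matrix (Fin 2) (Fin 2) k) 0 0)
      ext i
      fin_cases i <;>
        simp [Matrix.mulVec, dotProduct, Fin.sum_univ_two, h0, hon g h0, hsc g hg h0]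
    · have hq : (σ (g * g₀⁻¹) : Matrix (Fin 2) (Fin 2) k) 1 0 = 0 := by
        by_contra hq
        have h5 := hmul (g * g₀⁻¹) g₀ 1 0
        rw [inv_mul_cancel_right, (hoff _ hq).2, (hoff g₀ hg₀).1, mul_zero, zero_mul,
          add_zero] at h5
        exact h0 h5
      have hqH : g * g₀⁻¹ ∈ H := H.mul_mem hg (H.inv_mem hg₀H)
      have e01 := hmul (g * g₀⁻¹) g₀ 0 1
      have e10 := hmul (g * g₀⁻¹) g₀ 1 0
      rw [inv_mul_cancel_right, hon _ hq, zero_mul, add_zero, ← hu] at e01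
      rw [inv_mul_cancel_right, hq, zero_mul, zero_add, hsc _ hqH hq, ← hv] at e10
      apply h ((σ (g * g₀⁻¹) : Matrix (Fin 2) (Fin 2) k) 0 0 * (u * v))
      ext i
      fin_cases i
      · simp only [Matrix.mulVec, dotProduct, Fin.sum_univ_two, Fin.zero_eta, Fin.isValue,
          Matrix.cons_val_zero, Matrix.cons_val_one, Pi.smul_apply, smul_eq_mul]
        rw [(hoff g h0).1, e01]
        ring
      · simp only [Matrix.mulVec, dotProduct, Fin.sum_univ_two, Fin.mk_one, Fin.isValue,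
          Matrix.cons_val_zero, Matrix.cons_val_one, Pi.smul_apply, smul_eq_mul]
        rw [(hoff g h0).2, e10]
        ring

end Vale.Agent.P022D.Dk
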