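import Vale.Agent.P022D.Dk.Grp
import Vale.Agent.P022D.St
import Vale.Agent.P022.H20.Fin
import Vale.Agent.P022.H933.St.Bridge

/-!
P022D: the integral monomial normal form of a residually dihedral representation.
-/

open Matrix

noncomputable section

namespace Vale.Agent.P022D.Dk

open Vale.Agent.P022

/-- `g` fixes the eighth roots of unity -/
def Cy8 (g : GQ) : Prop := ∀ ζ : Qb, ζ ^ 8 = 1 → g ζ = ζ

/-- the group of the eighth cyclotomic field -/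
def H8 : Subgroup GQ where
  carrier := {g | Cy8 g}
  mul_mem' := fun {a b} ha hb ζ h => by rw [AlgEquiv.mul_apply, hb ζ h, ha ζ h]
  one_mem' := fun _ _ => rfl
  inv_mem' := fun {a} ha ζ h => by
    have h1 : a⁻¹ (a ζ) = ζ := by rw [← AlgEquiv.mul_apply, inv_mul_cancel]; rfl
    rwa [ha ζ h] at h1

/-- `r` is integral, and monomial for `M` modulo the maximal ideal; it is residually irreducible
on the group of the eighth cyclotomic field -/
structure Mono {E : Type} [NontriviallyNormedField E] (r : GQ →* GL (Fin 2) E)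
    (M : Subgroup GQ) : Prop where
  int : ∀ g i j, ‖(r g : Matrix (Fin 2) (Fin 2) E) i j‖ ≤ 1
  opn : IsOpen (M : Set GQ)
  idx : M.index = 2
  dia : ∀ g ∈ M, ‖(r g : Matrix (Fin 2) (Fin 2) E) 0 1‖ < 1 ∧
    ‖(r g : Matrix (Fin 2) (Fin 2) E) 1 0‖ < 1
  ant : ∀ g, g ∉ M → ‖(r g : Matrix (Fin 2) (Fin 2) E) 0 0‖ < 1 ∧
    ‖(r g : Matrix (Fin 2) (Fin 2) E) 1 1‖ < 1
  reg : ∃ g ∈ M, Cy8 g ∧
    ‖(r g : Matrix (Fin 2) (Fin 2) E) 0 0 - (r g : Matrix (Fin 2) (Fin 2) E) 1 1‖ = 1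
  out : ∃ g, g ∉ M ∧ Cy8 g

/-- the same in terms of traces -/
structure TrD {E : Type} [NontriviallyNormedField E] (r : GQ →* GL (Fin 2) E)
    (M : Subgroup GQ) (g₀ : GQ) : Prop where
  tr : ∀ g, ‖(r g : Matrix (Fin 2) (Fin 2) E).trace‖ ≤ 1
  dt : ∀ g, ‖(r g : Matrix (Fin 2) (Fin 2) E).det‖ ≤ 1
  idx : M.index = 2
  ant : ∀ g, g ∉ M → ‖(r g : Matrix (Fin 2) (Fin 2) E).trace‖ < 1
  mem : g₀ ∈ M
  cy : Cy8 g₀
  reg : ‖(r g₀ : Matrix (Fin 2) (Fin 2) E).trace‖ = 1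
  out : ∃ g, g ∉ M ∧ Cy8 g

/-- conjugation -/
def cj {E : Type} [Field E] (P : GL (Fin 2) E) (r : GQ →* GL (Fin 2) E) : GQ →* GL (Fin 2) E where
  toFun := fun g => P⁻¹ * r g * P
  map_one' := by rw [map_one]; group
  map_mul' := fun g g' => by rw [map_mul]; group

section Cj

variable {E : Type} [Field E] (P : GL (Fin 2) E) (r : GQ →* GL (Fin 2) E)

lemma cj_apply (g : GQ) : cj P r g = P⁻¹ * r g * P := rfl

lemma cj_trace (g : GQ) : (cj P r g : Matrix (Fin 2) (Fin 2) E).trace =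
    (r g : Matrix (Fin 2) (Fin 2) E).trace := by
  rw [cj_apply, Units.val_mul, Units.val_mul, Matrix.trace_units_conj']

lemma cj_det (g : GQ) : (cj P r g : Matrix (Fin 2) (Fin 2) E).det =
    (r g : Matrix (Fin 2) (Fin 2) E).det := by
  rw [cj_apply, Units.val_mul, Units.val_mul, Matrix.det_units_conj']

lemma cj_eq_one {g : GQ} : cj P r g = 1 ↔ r g = 1 := by
  rw [cj_apply]
  constructor
  · intro h
    have e : r g = P * (P⁻¹ * r g * P) * P⁻¹ := by group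
    rw [e, h]
    group
  · intro h
    rw [h]
    group

lemma cj_unrAt {p : ℕ} : UnrAt (cj P r) p ↔ UnrAt r p := by
  unfold UnrAt
  simp only [cj_eq_one]

lemma cj_odd : OddRep (cj P r) ↔ OddRep r := by
  unfold OddRep
  simp only [cj_det]

lemma cj_cj (Q : GL (Fin 2) E) : cj Q (cj P r) = cj (P * Q) r := by
  ext1 g
  simp only [cj_apply]
  group

/-- diagonalisation of a matrix with two eigenvalues -/
lemma diag (A : GL (Fin 2) E) (α β : E) (hne : α ≠ β)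
    (ht : (A : Matrix (Fin 2) (Fin 2) E).trace = α + β)
    (hd : (A : Matrix (Fin 2) (Fin 2) E).det = α * β) :
    ∃ P : GL (Fin 2) E, ((P⁻¹ * A * P : GL (Fin 2) E) : Matrix (Fin 2) (Fin 2) E) =
      !![α, 0; 0, β] := by
  rw [Matrix.trace_fin_two] at ht
  rw [Matrix.det_fin_two] at hd
  have hab : α - β ≠ 0 := sub_ne_zero.2 hne
  have key : ∀ X : Matrix (Fin 2) (Fin 2) E, X.det ≠ 0 →
      (A : Matrix (Fin 2) (Fin 2) E) * X = X * !![α, 0; 0, β] →
      ∃ P : GL (Fin 2) E, ((P⁻¹ * A * P : GL (Fin 2) E) : Matrix (Fin 2) (Fin 2) E) =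
        !![α, 0; 0, β] := by
    intro X hX h
    refine ⟨GeneralLinearGroup.mk'' X (isUnit_iff_ne_zero.2 hX), ?_⟩
    obtain ⟨P, hP⟩ : ∃ P : GL (Fin 2) E,
        P = GeneralLinearGroup.mk'' X (isUnit_iff_ne_zero.2 hX) := ⟨_, rfl⟩
    have hPX : (P : Matrix (Fin 2) (Fin 2) E) = X := by rw [hP]; rfl
    rw [← hP, Units.val_mul, Units.val_mul, Matrix.mul_assoc, hPX, h, ← hPX, ← Matrix.mul_assoc,
      ← Units.val_mul, inv_mul_cancel, Units.val_one, Matrix.one_mul]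
  by_cases h10 : (A : Matrix (Fin 2) (Fin 2) E) 1 0 = 0
  · have h0 : (α - (A : Matrix (Fin 2) (Fin 2) E) 0 0) *
        (α - (A : Matrix (Fin 2) (Fin 2) E) 1 1) = 0 := by
      rw [h10] at hd
      linear_combination hd - α * ht
    rcases mul_eq_zero.1 h0 with h | h
    · have h1 : (A : Matrix (Fin 2) (Fin 2) E) 0 0 = α := by linear_combination -h
      have h2 : (A : Matrix (Fin 2) (Fin 2) E) 1 1 = β := by linear_combination ht + h
      refine key !![1, (A : Matrix (Fin 2) (Fin 2) E) 0 1; 0, β - α] ?_ ?_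
      · rw [det_fin_two_of]
        intro h3
        apply hab
        linear_combination -h3
      · ext i j
        fin_cases i <;> fin_cases j <;> simp [Matrix.mul_apply, Fin.sum_univ_two, h10, h1, h2] <;>
          ring
    · have h1 : (A : Matrix (Fin 2) (Fin 2) E) 1 1 = α := by linear_combination -h
      have h2 : (A : Matrix (Fin 2) (Fin 2) E) 0 0 = β := by linear_combination ht + h
      refine key !![(A : Matrix (Fin 2) (Fin 2) E) 0 1, 1; α - β, 0] ?_ ?_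
      · rw [det_fin_two_of]
        intro h3
        apply hab
        linear_combination -h3
      · ext i j
        fin_cases i <;> fin_cases j <;> simp [Matrix.mul_apply, Fin.sum_univ_two, h10, h1, h2] <;>
          ring
  · refine key !![α - (A : Matrix (Fin 2) (Fin 2) E) 1 1, β - (A : Matrix (Fin 2) (Fin 2) E) 1 1;
      (A : Matrix (Fin 2) (Fin 2) E) 1 0, (A : Matrix (Fin 2) (Fin 2) E) 1 0] ?_ ?_
    · rw [det_fin_two_of]
      intro h3
      apply mul_ne_zero hab h10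
      linear_combination h3
    · ext i j
      fin_cases i <;> fin_cases j
      · simp [Matrix.mul_apply, Fin.sum_univ_two]
        linear_combination α * ht - hd
      · simp [Matrix.mul_apply, Fin.sum_univ_two]
        linear_combination β * ht - hd
      · simp [Matrix.mul_apply, Fin.sum_univ_two]
        ring
      · simp [Matrix.mul_apply, Fin.sum_univ_two]
        ring

/-- scaling of the upper right entry -/
lemma scale (b : E) (hb : b ≠ 0) : ∃ D : GL (Fin 2) E, ∀ A : GL (Fin 2) E,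
    ((D⁻¹ * A * D : GL (Fin 2) E) : Matrix (Fin 2) (Fin 2) E) 0 1 =
      b⁻¹ * (A : Matrix (Fin 2) (Fin 2) E) 0 1 ∧
    ((D⁻¹ * A * D : GL (Fin 2) E) : Matrix (Fin 2) (Fin 2) E) 1 0 =
      b * (A : Matrix (Fin 2) (Fin 2) E) 1 0 := by
  refine ⟨⟨!![b, 0; 0, 1], !![b⁻¹, 0; 0, 1], ?_, ?_⟩, fun A => ⟨?_, ?_⟩⟩
  · ext i j
    fin_cases i <;> fin_cases j <;> simp [Matrix.mul_apply, Fin.sum_univ_two, hb]
  · ext i j
    fin_cases i <;> fin_cases j <;> simp [Matrix.mul_apply, Fin.sum_univ_two, hb]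
  · simp [Matrix.mul_apply, Fin.sum_univ_two, Matrix.vecMul, dotProduct]
  · simp [Matrix.mul_apply, Fin.sum_univ_two, Matrix.vecMul, dotProduct, mul_comm]

end Cj

section Nrm

variable {E : Type} [NontriviallyNormedField E]

lemma cj_cont (P : GL (Fin 2) E) {r : GQ →* GL (Fin 2) E} (h : Continuous r) :
    Continuous (cj P r) :=
  (continuous_const.mul h).mul continuous_const

lemma TrD.cj {r : GQ →* GL (Fin 2) E} {M : Subgroup GQ} {g₀ : GQ} (h : TrD r M g₀)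
    (P : GL (Fin 2) E) : TrD (cj P r) M g₀ :=
  ⟨fun g => by rw [cj_trace]; exact h.tr g, fun g => by rw [cj_det]; exact h.dt g, h.idx,
    fun g hg => by rw [cj_trace]; exact h.ant g hg, h.mem, h.cy,
    by rw [cj_trace]; exact h.reg, h.out⟩

lemma TrD.det_one {r : GQ →* GL (Fin 2) E} {M : Subgroup GQ} {g₀ : GQ} (h : TrD r M g₀)
    (g : GQ) : ‖(r g : Matrix (Fin 2) (Fin 2) E).det‖ = 1 := by
  have h1 : ‖(r g : Matrix (Fin 2) (Fin 2) E).det‖ * ‖(r g⁻¹ : Matrix (Fin 2) (Fin 2) E).det‖ =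
      1 := by
    rw [← norm_mul, ← Matrix.det_mul, ← Units.val_mul, ← map_mul, mul_inv_cancel, map_one,
      Units.val_one, Matrix.det_one, norm_one]
  have h2 := h.dt g
  have h3 := h.dt g⁻¹
  have h4 := norm_nonneg (r g : Matrix (Fin 2) (Fin 2) E).det
  nlinarith

variable [IsUltrametricDist E]

lemma nle {x y : E} (hx : ‖x‖ ≤ 1) (hy : ‖y‖ ≤ 1) : ‖x - y‖ ≤ 1 := by
  rw [sub_eq_add_neg]
  exact (IsUltrametricDist.norm_add_le_max _ _).trans (max_le hx (by rwa [norm_neg]))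

lemma nlt {x y : E} (hx : ‖x‖ < 1) (hy : ‖y‖ < 1) : ‖x - y‖ < 1 := by
  rw [sub_eq_add_neg]
  exact (IsUltrametricDist.norm_add_le_max _ _).trans_lt (max_lt hx (by rwa [norm_neg]))

lemma neq {x y : E} (hx : ‖x‖ < 1) (hy : ‖y‖ = 1) : ‖x - y‖ = 1 := by
  refine le_antisymm (nle hx.le hy.le) (not_lt.1 fun h => ?_)
  have h1 := nlt hx h
  rw [sub_sub_cancel, hy] at h1
  exact lt_irrefl _ h1

omit [IsUltrametricDist E] in
lemma mle {x y : E} (hx : ‖x‖ ≤ 1) (hy : ‖y‖ ≤ 1) : ‖x * y‖ ≤ 1 := by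
  rw [norm_mul]
  exact mul_le_one₀ hx (norm_nonneg _) hy

omit [IsUltrametricDist E] in
lemma mlt {x y : E} (hx : ‖x‖ ≤ 1) (hy : ‖y‖ < 1) : ‖x * y‖ < 1 := by
  rw [norm_mul]
  exact mul_lt_one_of_nonneg_of_lt_one_right hx (norm_nonneg _) hy

/-- the diagonal entries when `r g₀` is diagonal -/
lemma diag_ent {r : GQ →* GL (Fin 2) E} {M : Subgroup GQ} {g₀ : GQ} (h : TrD r M g₀) {α β : E}
    (hα : ‖α‖ ≤ 1) (hβ : ‖β‖ ≤ 1) (hab : ‖α - β‖ = 1)
    (h0 : (r g₀ : Matrix (Fin 2) (Fin 2) E) = !![α, 0; 0, β]) (g : GQ) :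
    (‖(r g : Matrix (Fin 2) (Fin 2) E) 0 0‖ ≤ 1 ∧ ‖(r g : Matrix (Fin 2) (Fin 2) E) 1 1‖ ≤ 1) ∧
    (g ∉ M → ‖(r g : Matrix (Fin 2) (Fin 2) E) 0 0‖ < 1 ∧
      ‖(r g : Matrix (Fin 2) (Fin 2) E) 1 1‖ < 1) := by
  have e : (r (g₀ * g) : Matrix (Fin 2) (Fin 2) E).trace =
      α * (r g : Matrix (Fin 2) (Fin 2) E) 0 0 + β * (r g : Matrix (Fin 2) (Fin 2) E) 1 1 := by
    rw [map_mul, Units.val_mul, h0, Matrix.trace_fin_two]
    simp [Matrix.mul_apply, Fin.sum_univ_two]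
  have e0 : ‖(r g : Matrix (Fin 2) (Fin 2) E) 0 0‖ =
      ‖(r (g₀ * g) : Matrix (Fin 2) (Fin 2) E).trace -
        β * (r g : Matrix (Fin 2) (Fin 2) E).trace‖ := by
    rw [e, Matrix.trace_fin_two, ← one_mul ‖(r g : Matrix (Fin 2) (Fin 2) E) 0 0‖, ← hab,
      ← norm_mul]
    congr 1
    ring
  have e1 : ‖(r g : Matrix (Fin 2) (Fin 2) E) 1 1‖ =
      ‖α * (r g : Matrix (Fin 2) (Fin 2) E).trace -
        (r (g₀ * g) : Matrix (Fin 2) (Fin 2) E).trace‖ := by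
    rw [e, Matrix.trace_fin_two, ← one_mul ‖(r g : Matrix (Fin 2) (Fin 2) E) 1 1‖, ← hab,
      ← norm_mul]
    congr 1
    ring
  rw [e0, e1]
  refine ⟨⟨nle (h.tr _) (mle hβ (h.tr _)), nle (mle hα (h.tr _)) (h.tr _)⟩, fun hg => ?_⟩
  have hg' : g₀ * g ∉ M := fun h1 => hg ((M.mul_mem_cancel_left h.mem).1 h1)
  exact ⟨nlt (h.ant _ hg') (mlt hβ (h.ant _ hg)), nlt (mlt hα (h.ant _ hg)) (h.ant _ hg')⟩

lemma TrD.opn {r : GQ →* GL (Fin 2) E} {M : Subgroup GQ} {g₀ : GQ} (h : TrD r M g₀)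
    (hc : Continuous r) : IsOpen (M : Set GQ) := by
  have hcont : Continuous fun g : GQ => ‖(r (g₀ * g) : Matrix (Fin 2) (Fin 2) E).trace -
      (r g₀ : Matrix (Fin 2) (Fin 2) E).trace‖ :=
    ((Units.continuous_val.comp (hc.comp (continuous_const.mul continuous_id))).matrix_trace.sub
      continuous_const).norm
  refine Subgroup.isOpen_of_mem_nhds M (g := 1)
    (Filter.mem_of_superset ((isOpen_lt hcont (continuous_const (y := (1 : ℝ)))).mem_nhds ?_) ?_)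
  · simp
  · intro g hg
    by_contra hgM
    have hg' : g₀ * g ∉ M := fun h1 => hgM ((M.mul_mem_cancel_left h.mem).1 h1)
    have h1 := neq (h.ant _ hg') h.reg
    have h2 : ‖(r (g₀ * g) : Matrix (Fin 2) (Fin 2) E).trace -
      (r g₀ : Matrix (Fin 2) (Fin 2) E).trace‖ < 1 := hg
    exact h2.ne h1

/-- the normal form from the traces, when an eigenvalue of `r g₀` is rational -/
theorem mono_of {r : GQ →* GL (Fin 2) E} {M : Subgroup GQ} {g₀ : GQ} (h : TrD r M g₀)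
    (hc : Continuous r) (h2 : ‖(2 : E)‖ < 1) (α : E)
    (hα : α ^ 2 - (r g₀ : Matrix (Fin 2) (Fin 2) E).trace * α +
      (r g₀ : Matrix (Fin 2) (Fin 2) E).det = 0) :
    ∃ P : GL (Fin 2) E, Mono (cj P r) M := by
  obtain ⟨β, hβ⟩ : ∃ β, β = (r g₀ : Matrix (Fin 2) (Fin 2) E).trace - α := ⟨_, rfl⟩
  have ht : (r g₀ : Matrix (Fin 2) (Fin 2) E).trace = α + β := by rw [hβ]; ring
  have hd : (r g₀ : Matrix (Fin 2) (Fin 2) E).det = α * β := by
    rw [hβ]; linear_combination hα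
  have hα1 : ‖α‖ ≤ 1 := by
    by_contra hh
    rw [not_le] at hh
    have hα0 : α ≠ 0 := by
      rintro rfl
      rw [norm_zero] at hh
      linarith
    have hi : ‖α⁻¹‖ < 1 := by
      rw [norm_inv]
      exact inv_lt_one_of_one_lt₀ hh
    have e : (1 : E) = (r g₀ : Matrix (Fin 2) (Fin 2) E).trace * α⁻¹ -
        (r g₀ : Matrix (Fin 2) (Fin 2) E).det * (α⁻¹ * α⁻¹) := by
      field_simp
      linear_combination hα
    have h5 := nlt (mlt (h.tr g₀) hi) (mlt (h.dt g₀) (mlt hi.le hi))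
    rw [← e, norm_one] at h5
    exact lt_irrefl _ h5
  have hβ1 : ‖β‖ ≤ 1 := by rw [hβ]; exact nle (h.tr g₀) hα1
  have hab : ‖α - β‖ = 1 := by
    have e : α - β = -(β * 2 - (r g₀ : Matrix (Fin 2) (Fin 2) E).trace) := by rw [ht]; ring
    rw [e, norm_neg]
    exact neq (mlt hβ1 h2) h.reg
  have hne : α ≠ β := by
    intro h3
    rw [h3, sub_self, norm_zero] at hab
    exact zero_ne_one hab
  obtain ⟨P, hP⟩ := diag (r g₀) α β hne ht hd
  obtain ⟨g₁, hg₁, hg₁c⟩ := h.out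
  have hP' : (cj P r g₀ : Matrix (Fin 2) (Fin 2) E) = !![α, 0; 0, β] := hP
  have hbc : ∀ {s : GQ →* GL (Fin 2) E}, TrD s M g₀ →
      (s g₀ : Matrix (Fin 2) (Fin 2) E) = !![α, 0; 0, β] →
      ‖(s g₁ : Matrix (Fin 2) (Fin 2) E) 0 1 * (s g₁ : Matrix (Fin 2) (Fin 2) E) 1 0‖ = 1 := by
    intro s hs hs0
    obtain ⟨a1, a2⟩ := (diag_ent hs hα1 hβ1 hab hs0 g₁).2 hg₁
    have h5 := neq (mlt a1.le a2) (hs.det_one g₁)
    rw [Matrix.det_fin_two, sub_sub_cancel] at h5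
    exact h5
  have hb0 : (cj P r g₁ : Matrix (Fin 2) (Fin 2) E) 0 1 ≠ 0 := by
    intro h3
    have h5 := hbc (h.cj P) hP'
    rw [h3, zero_mul, norm_zero] at h5
    exact zero_ne_one h5
  obtain ⟨D, hD⟩ := scale _ hb0
  refine ⟨P * D, ?_⟩
  rw [← cj_cj]
  obtain ⟨s, hs⟩ : ∃ s, s = cj D (cj P r) := ⟨_, rfl⟩
  have hsT : TrD s M g₀ := by rw [hs]; exact (h.cj P).cj D
  have hsc : Continuous s := by rw [hs]; exact cj_cont D (cj_cont P hc)
  have hs1 : (s g₁ : Matrix (Fin 2) (Fin 2) E) 0 1 = 1 := by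
    rw [hs, cj_apply, (hD _).1, inv_mul_cancel₀ hb0]
  have hs01 : (s g₀ : Matrix (Fin 2) (Fin 2) E) 0 1 = 0 := by
    rw [hs, cj_apply, (hD _).1, hP']
    simp
  have hs10 : (s g₀ : Matrix (Fin 2) (Fin 2) E) 1 0 = 0 := by
    rw [hs, cj_apply, (hD _).2, hP']
    simp
  rw [← hs]
  -- the diagonal of `s g₀`
  obtain ⟨α', hα'⟩ : ∃ x, x = (s g₀ : Matrix (Fin 2) (Fin 2) E) 0 0 := ⟨_, rfl⟩
  obtain ⟨β', hβ'⟩ : ∃ x, x = (s g₀ : Matrix (Fin 2) (Fin 2) E) 1 1 := ⟨_, rfl⟩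
  have hs0 : (s g₀ : Matrix (Fin 2) (Fin 2) E) = !![α', 0; 0, β'] := by
    ext i j
    fin_cases i <;> fin_cases j <;> simp [hα', hβ', hs01, hs10]
  have t1 : α' + β' = α + β := by
    rw [← ht, hα', hβ', ← Matrix.trace_fin_two, hs, cj_trace, cj_trace]
  have t2 : α' * β' = α * β := by
    have e : (s g₀ : Matrix (Fin 2) (Fin 2) E).det = α * β := by rw [hs, cj_det, cj_det, hd]
    rw [← e, hs0, det_fin_two_of]
    ring
  have hcase : (α' = α ∧ β' = β) ∨ (α' = β ∧ β' = α) := by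
    have e : (α' - α) * (α' - β) = 0 := by linear_combination α' * t1 - t2
    rcases mul_eq_zero.1 e with e | e
    · exact Or.inl ⟨by linear_combination e, by linear_combination t1 - e⟩
    · exact Or.inr ⟨by linear_combination e, by linear_combination t1 - e⟩
  have hn : ‖α'‖ ≤ 1 ∧ ‖β'‖ ≤ 1 ∧ ‖α' - β'‖ = 1 := by
    rcases hcase with ⟨e1, e2⟩ | ⟨e1, e2⟩
    · rw [e1, e2]; exact ⟨hα1, hβ1, hab⟩
    · rw [e1, e2]; exact ⟨hβ1, hα1, by rw [norm_sub_rev]; exact hab⟩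
  have hde := diag_ent hsT hn.1 hn.2.1 hn.2.2 hs0
  have hc1 : ‖(s g₁ : Matrix (Fin 2) (Fin 2) E) 1 0‖ = 1 := by
    obtain ⟨a1, a2⟩ := (hde g₁).2 hg₁
    have h5 := neq (mlt a1.le a2) (hsT.det_one g₁)
    rw [Matrix.det_fin_two, sub_sub_cancel, hs1, one_mul] at h5
    exact h5
  have hmul : ∀ g g' i j, (s (g * g') : Matrix (Fin 2) (Fin 2) E) i j =
      (s g : Matrix (Fin 2) (Fin 2) E) i 0 * (s g' : Matrix (Fin 2) (Fin 2) E) 0 j +
      (s g : Matrix (Fin 2) (Fin 2) E) i 1 * (s g' : Matrix (Fin 2) (Fin 2) E) 1 j := by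
    intro g g' i j
    rw [map_mul, Units.val_mul, Matrix.mul_apply, Fin.sum_univ_two]
  have eb : ∀ g, ‖(s g : Matrix (Fin 2) (Fin 2) E) 0 1‖ =
      ‖(s (g * g₁) : Matrix (Fin 2) (Fin 2) E) 0 0 -
        (s g : Matrix (Fin 2) (Fin 2) E) 0 0 * (s g₁ : Matrix (Fin 2) (Fin 2) E) 0 0‖ := by
    intro g
    rw [hmul, add_sub_cancel_left, norm_mul, hc1, mul_one]
  have ec : ∀ g, ‖(s g : Matrix (Fin 2) (Fin 2) E) 1 0‖ =
      ‖(s (g * g₁) : Matrix (Fin 2) (Fin 2) E) 1 1 -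
        (s g : Matrix (Fin 2) (Fin 2) E) 1 1 * (s g₁ : Matrix (Fin 2) (Fin 2) E) 1 1‖ := by
    intro g
    rw [hmul, add_sub_cancel_right, hs1, mul_one]
  refine ⟨fun g i j => ?_, hsT.opn hsc, h.idx, fun g hg => ?_, fun g hg => (hde g).2 hg,
    ⟨g₀, h.mem, h.cy, by rw [← hα', ← hβ']; exact hn.2.2⟩, h.out⟩
  · fin_cases i <;> fin_cases j
    · exact (hde g).1.1
    · exact (eb g).trans_le (nle (hde _).1.1 (mle (hde _).1.1 (hde _).1.1))
    · exact (ec g).trans_le (nle (hde _).1.2 (mle (hde _).1.2 (hde _).1.2))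
    · exact (hde g).1.2
  · have hg' : g * g₁ ∉ M := fun h1 => hg₁ ((M.mul_mem_cancel_left hg).1 h1)
    exact ⟨(eb g).trans_lt (nlt ((hde _).2 hg').1 (mlt (hde _).1.1 ((hde _).2 hg₁).1)),
      (ec g).trans_lt (nlt ((hde _).2 hg').2 (mlt (hde _).1.2 ((hde _).2 hg₁).2))⟩

end Nrm

end Vale.Agent.P022D.Dk
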