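import Vale.Agent.P022D.Dk.Mono
import Vale.Agent.P022.H315.Sv.Ind

/-!
P022D: reduction of Q1 for residually dihedral representations to the monomial normal form.
-/

open Matrix

noncomputable section

namespace Vale.Agent.P022D.Dk

open Vale.Agent.P022

lemma norm_two (E : Type) [NontriviallyNormedField E] [NormedAlgebra ℚ_[2] E] :
    ‖(2 : E)‖ < 1 := by
  have h := norm_algebraMap' E (2 : ℚ_[2])
  rw [map_ofNat] at h
  rw [h]
  have h3 := Padic.norm_p (p := 2)
  norm_num at h3 ⊢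
  rw [h3]
  norm_num

/-- the traces of a residually dihedral representation -/
theorem trD_of {E : Type} [NontriviallyNormedField E] [NormedAlgebra ℚ_[2] E]
    (r : GQ →* GL (Fin 2) E) {k : Type} [Field k] [CharP k 2] (ρ : GQ →* GL (Fin 2) k)
    (hr : St.IsRes r ρ) (hs : Group.IsSolvable ρ.range) (hi : St.IrrCyc ρ) :
    ∃ M g₀, TrD r M g₀ := by
  obtain ⟨O, π, hO, ht⟩ := hr
  have hinj : Function.Injective (algebraMap k (AlgebraicClosure k)) :=
    (algebraMap k (AlgebraicClosure k)).injective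
  have hc2 : CharP (AlgebraicClosure k) 2 := charP_of_injective_algebraMap hinj 2
  have hs' : Group.IsSolvable (bc (AlgebraicClosure k) ρ).range := by
    have e : (bc (AlgebraicClosure k) ρ).range =
        ρ.range.map (GeneralLinearGroup.map (algebraMap k (AlgebraicClosure k))) := by
      rw [bc, MonoidHom.range_comp]
    rw [e]
    exact Group.isSolvable_of_surjective (MonoidHom.subgroupMap_surjective _ _)
  obtain ⟨M, h2, h0, ⟨g₀, hg₀, hc₀, hn₀⟩, g₁, hc₁, hg₁⟩ := grp (bc (AlgebraicClosure k) ρ) hs' H8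
    (fun w hw => by
      obtain ⟨g, hg, ha⟩ := hi w hw
      exact ⟨g, hg, ha⟩)
  have hsm : ∀ t : O, π t = 0 → ‖(t : E)‖ < 1 := by
    intro t h
    refine lt_of_le_of_ne ((hO _).1 t.2) fun h1 => ?_
    have ht0 : (t : E) ≠ 0 := by
      intro h3
      rw [h3, norm_zero] at h1
      exact zero_ne_one h1
    have hm : (t : E)⁻¹ ∈ O := by rw [hO, norm_inv, h1, inv_one]
    have e : t * ⟨(t : E)⁻¹, hm⟩ = 1 := Subtype.ext (mul_inv_cancel₀ ht0)
    have h4 := congrArg π e
    rw [map_mul, h, zero_mul, map_one] at h4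
    exact zero_ne_one h4
  refine ⟨M, g₀, fun g => ?_, fun g => ?_, h2, fun g hg => ?_, hg₀, hc₀, ?_, g₁, hg₁, hc₁⟩
  · obtain ⟨t, d, a, -, -, -⟩ := ht g
    rw [← a]
    exact (hO _).1 t.2
  · obtain ⟨t, d, -, a, -, -⟩ := ht g
    rw [← a]
    exact (hO _).1 d.2
  · obtain ⟨t, d, a, -, b, -⟩ := ht g
    rw [← a]
    refine hsm t ?_
    have h3 := h0 g hg
    rw [H20.bc_trace, map_eq_zero] at h3
    rw [b, h3]
  · obtain ⟨t, d, a, -, b, -⟩ := ht g₀
    rw [← a]
    refine le_antisymm ((hO _).1 t.2) (not_lt.1 fun h3 => hn₀ ?_)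
    rw [H20.bc_trace, ← b, H315.Sv.pi_small O hO π t h3, map_zero]

section BC

variable {E : Type} [NontriviallyNormedField E] (E' : Type) [NontriviallyNormedField E']
  [NormedAlgebra E E'] {r : GQ →* GL (Fin 2) E}

lemma bc_cont (h : Continuous r) : Continuous (bc E' r) := by
  have h1 : Continuous (algebraMap E E') := continuous_algebraMap E E'
  refine Units.continuous_iff.2 ⟨?_, ?_⟩
  · exact (Units.continuous_val.comp h).matrix_map h1
  · have e : (fun g => (((bc E' r g)⁻¹ : GL (Fin 2) E') : Matrix (Fin 2) (Fin 2) E')) =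
        fun g => (((r g)⁻¹ : GL (Fin 2) E) : Matrix (Fin 2) (Fin 2) E).map (algebraMap E E') := by
      funext g
      rw [← map_inv, ← map_inv, H20.bc_coe]
    rw [e]
    exact (Units.continuous_coe_inv.comp h).matrix_map h1

lemma TrD.bc {M : Subgroup GQ} {g₀ : GQ} (h : TrD r M g₀) : TrD (bc E' r) M g₀ :=
  ⟨fun g => by rw [H20.bc_trace, norm_algebraMap']; exact h.tr g,
    fun g => by rw [H20.bc_det, norm_algebraMap']; exact h.dt g, h.idx,
    fun g hg => by rw [H20.bc_trace, norm_algebraMap']; exact h.ant g hg, h.mem, h.cy,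
    by rw [H20.bc_trace, norm_algebraMap']; exact h.reg, h.out⟩

lemma bc_ent (g : GQ) (i j : Fin 2) : (bc E' r g : Matrix (Fin 2) (Fin 2) E') i j =
    algebraMap E E' ((r g : Matrix (Fin 2) (Fin 2) E) i j) := rfl

lemma Mono.bc {M : Subgroup GQ} (h : Mono r M) : Mono (bc E' r) M := by
  refine ⟨fun g i j => ?_, h.opn, h.idx, fun g hg => ?_, fun g hg => ?_, ?_, h.out⟩
  · rw [bc_ent, norm_algebraMap']
    exact h.int g i j
  · rw [bc_ent, bc_ent, norm_algebraMap', norm_algebraMap']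
    exact h.dia g hg
  · rw [bc_ent, bc_ent, norm_algebraMap', norm_algebraMap']
    exact h.ant g hg
  · obtain ⟨g, a, b, c⟩ := h.reg
    refine ⟨g, a, b, ?_⟩
    rw [bc_ent, bc_ent, ← map_sub, norm_algebraMap']
    exact c

end BC

/-- the norm on a finite extension -/
lemma ext_aux (E : Type) [NontriviallyNormedField E] [NormedAlgebra ℚ_[2] E]
    [FiniteDimensional ℚ_[2] E] (F : Type) [Field F] [Algebra E F] [FiniteDimensional E F]
    (p : Polynomial E) (hp : (p.map (algebraMap E F)).Splits) :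
    ∃ (E' : Type) (_ : NontriviallyNormedField E') (_ : NormedAlgebra ℚ_[2] E')
      (_ : IsUltrametricDist E') (_ : FiniteDimensional ℚ_[2] E') (_ : NormedAlgebra E E')
      (_ : IsScalarTower ℚ_[2] E E'), (p.map (algebraMap E E')).Splits := by
  have hcE : CompleteSpace E := FiniteDimensional.complete ℚ_[2] E
  have huE : IsUltrametricDist E := IsUltrametricDist.of_normedAlgebra ℚ_[2]
  let i1 : NontriviallyNormedField F := spectralNorm.nontriviallyNormedField E F
  let i2 : NormedAlgebra E F := spectralNorm.normedAlgebra E F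
  let i3 : NormedAlgebra ℚ_[2] F := NormedAlgebra.restrictScalars ℚ_[2] E F
  have i4 : IsScalarTower ℚ_[2] E F := IsScalarTower.of_algebraMap_eq fun x => rfl
  have i5 : FiniteDimensional ℚ_[2] F := FiniteDimensional.trans ℚ_[2] E F
  have i6 : IsUltrametricDist F := IsUltrametricDist.of_normedAlgebra ℚ_[2]
  exact ⟨F, i1, i3, i6, i5, i2, i4, hp⟩

/-- a finite normed extension which splits a given polynomial -/
theorem ext_split (E : Type) [NontriviallyNormedField E] [NormedAlgebra ℚ_[2] E]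
    [FiniteDimensional ℚ_[2] E] (p : Polynomial E) :
    ∃ (E' : Type) (_ : NontriviallyNormedField E') (_ : NormedAlgebra ℚ_[2] E')
      (_ : IsUltrametricDist E') (_ : FiniteDimensional ℚ_[2] E') (_ : NormedAlgebra E E')
      (_ : IsScalarTower ℚ_[2] E E'), (p.map (algebraMap E E')).Splits :=
  ext_aux E p.SplittingField p (Polynomial.SplittingField.splits p)

/-- descent of the conclusion of Q1 -/
theorem q1_desc {E : Type} [NontriviallyNormedField E] [NormedAlgebra ℚ_[2] E]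
    [FiniteDimensional ℚ_[2] E] {E' : Type} [NontriviallyNormedField E'] [NormedAlgebra ℚ_[2] E']
    [NormedAlgebra E E'] [IsScalarTower ℚ_[2] E E'] (r : GQ →* GL (Fin 2) E)
    (P : GL (Fin 2) E') (h : Q1Concl E' (cj P (bc E' r))) : Q1Concl E r := by
  have hcE : CompleteSpace E := FiniteDimensional.complete ℚ_[2] E
  obtain ⟨N, hN, ho, hp, hu, c, hc⟩ := h
  refine ⟨N, hN, ho, fun p a b d => hp p a b (cj_unrAt _ _ |>.2 (H20.bc_unrAt.2 d)),
    fun ℓ => H20.bc_unrAt.1 ((cj_unrAt _ _).1 (hu ℓ)), ?_⟩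
  obtain ⟨c₀, hc₀⟩ := H20.bridge c
    (Sum.elim (fun ℓ g => IsFrob ℓ.1 g) (fun ℓ g => IsFrob ℓ.1 g))
    (Sum.elim (fun _ g => (r g : Matrix (Fin 2) (Fin 2) E).trace)
      (fun _ g => (r g : Matrix (Fin 2) (Fin 2) E).det))
    (by
      rintro (ℓ | ℓ)
      · exact H20.exists_isFrob ℓ.2.1
      · exact H20.exists_isFrob ℓ.2.1)
    (by
      rintro (ℓ | ℓ) g hg
      · exact (hc ℓ g hg).1.trans (by rw [cj_trace, H20.bc_trace]; rfl)
      · exact (hc ℓ g hg).2.trans (by rw [cj_det, H20.bc_det]; rfl))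
  exact ⟨c₀, fun ℓ g hg => ⟨hc₀ (Sum.inl ℓ) g hg, hc₀ (Sum.inr ℓ) g hg⟩⟩

/-- the monomial model over a finite extension -/
theorem model {E : Type} [NontriviallyNormedField E] [NormedAlgebra ℚ_[2] E]
    [FiniteDimensional ℚ_[2] E] {r : GQ →* GL (Fin 2) E} (hc : Continuous r) {M : Subgroup GQ}
    {g₀ : GQ} (h : TrD r M g₀) :
    ∃ (E' : Type) (_ : NontriviallyNormedField E') (_ : NormedAlgebra ℚ_[2] E')
      (_ : IsUltrametricDist E') (_ : FiniteDimensional ℚ_[2] E') (_ : NormedAlgebra E E')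
      (_ : IsScalarTower ℚ_[2] E E') (P : GL (Fin 2) E'), Mono (cj P (bc E' r)) M := by
  obtain ⟨E', i1, i2, i3, i4, i5, i6, hp⟩ := ext_split E (r g₀ : Matrix (Fin 2) (Fin 2) E).charpoly
  refine ⟨E', i1, i2, i3, i4, i5, i6, ?_⟩
  have hd : ((r g₀ : Matrix (Fin 2) (Fin 2) E).charpoly.map (algebraMap E E')).degree ≠ 0 := by
    rw [Polynomial.degree_map, Matrix.charpoly_degree_eq_dim]
    simp
  obtain ⟨α, hα⟩ := hp.exists_eval_eq_zero hd
  refine mono_of (h.bc E') (bc_cont E' hc) (norm_two E') α ?_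
  rw [Matrix.charpoly_fin_two] at hα
  rw [H20.bc_trace, H20.bc_det]
  simpa using hα

/-- **the reduction**: Q1 for residually dihedral representations follows from Q1 for the
representations in monomial normal form -/
theorem reduce
    (H : ∀ (E : Type) [NontriviallyNormedField E] [NormedAlgebra ℚ_[2] E] [IsUltrametricDist E]
      [FiniteDimensional ℚ_[2] E] (r : GQ →* GL (Fin 2) E) (M : Subgroup GQ), Continuous r →
      OddRep r → {p : ℕ | p.Prime ∧ ¬ UnrAt r p}.Finite → Mono r M → Q1Concl E r)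
    (E : Type) [NontriviallyNormedField E] [NormedAlgebra ℚ_[2] E] [FiniteDimensional ℚ_[2] E]
    (r : GQ →* GL (Fin 2) E) (hc : Continuous r) (ho : OddRep r)
    (hS : {p : ℕ | p.Prime ∧ ¬ UnrAt r p}.Finite) {k : Type} [Field k] [CharP k 2]
    (ρ : GQ →* GL (Fin 2) k) (hr : St.IsRes r ρ) (hs : Group.IsSolvable ρ.range)
    (hi : St.IrrCyc ρ) : Q1Concl E r := by
  obtain ⟨M, g₀, h⟩ := trD_of r ρ hr hs hi
  obtain ⟨E', i1, i2, i3, i4, i5, i6, P, hP⟩ := model hc h
  refine q1_desc r P (H E' _ M (cj_cont P (bc_cont E' hc)) ((cj_odd _ _).2 (H20.bc_odd.2 ho))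
    ?_ hP)
  simp only [cj_unrAt, H20.bc_unrAt]
  exact hS

end Vale.Agent.P022D.Dk
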